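import Vale.Agent.P022F.Gm
import Vale.Agent.P022D.W.Pair

/-!
# P022F, block W: a pseudo character with distinct residual characters on a tame group splits
-/

set_option linter.all false

noncomputable section

namespace Vale.Agent.P022F.Wq

open Vale.Agent.P022.H346 Vale.Agent.P022D Vale.Agent.P022D.W Vale.Agent.P022D.Gma

variable {G A F Γ : Type} [Group G] [CommRing A] [Field F] [Monoid Γ] {π : A →+* F} {ℓ : ℕ}
  {D I N : Subgroup G} {τ φ g0 : G} {f : G →* Γ} {χ ψ : G →* F} {a δ b : G → A}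

theorem step (hA : LR π) (two : (2 : F) = 0) (odd : Odd ℓ) (hT : TameAt ℓ D I N τ φ f)
    (ha : ∀ g, π (a g) = χ g) (hδ : ∀ g, π (δ g) = ψ g)
    (hb : ∀ g k, b (g * k) = a g * b k + b g * δ k)
    (iv : ∀ g k, f g = f k → χ g = χ k ∧ ψ g = ψ k ∧ b g = b k) (g0D : g0 ∈ D)
    (ne : χ g0 ≠ ψ g0) (h0 : b g0 = 0) (b1 : b 1 = 0) (J : Ideal A) (hJ : ∀ g ∈ D, b g ∈ J) :
    ∀ g ∈ D, b g ∈ RingHom.ker π * J := by
  set J' := RingHom.ker π * J with hJ'
  have hm : ∀ {x y : A}, π x = 0 → y ∈ J → x * y ∈ J' := fun hx hy => Ideal.mul_mem_mul hx hy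
  have hu : IsUnit (a g0 - δ g0) := hA.loc _ (by rw [map_sub, ha, hδ, sub_ne_zero]; exact ne)
  have can : ∀ (c : G →* F) {s g : G}, c (s * g) = c g → c s = 1 := fun c s g h => by
    have := congrArg (· * c g⁻¹) h
    simpa only [← map_mul, mul_inv_cancel_right, mul_inv_cancel, map_one] using this
  have hadd : ∀ g ∈ D, ∀ k ∈ D, χ g = 1 → ψ k = 1 → b (g * k) - (b g + b k) ∈ J' := by
    intro g hg k hk eg ek
    have e : b (g * k) - (b g + b k) = (a g - 1) * b k + (δ k - 1) * b g := by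
      rw [hb]; ring
    rw [e]
    refine J'.add_mem (hm ?_ (hJ k hk)) (hm ?_ (hJ g hg))
    · rw [map_sub, ha, eg, map_one, sub_self]
    · rw [map_sub, hδ, ek, map_one, sub_self]
  have hpow : ∀ g ∈ D, χ g = 1 → ψ g = 1 → ∀ n : ℕ, b (g ^ n) - n * b g ∈ J' := by
    intro g hg eg eg' n
    induction n with
    | zero => simp [b1]
    | succ n ih =>
      have := J'.add_mem (hadd (g ^ n) (D.pow_mem hg n) g hg (by rw [map_pow, eg, one_pow]) eg') ih
      have e : b (g ^ (n + 1)) - ((n + 1 : ℕ) : A) * b g =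
          b (g ^ n * g) - (b (g ^ n) + b g) + (b (g ^ n) - n * b g) := by
        rw [pow_succ]; push_cast; ring
      rwa [e]
  have hodd : ∀ g ∈ D, χ g = 1 → ψ g = 1 → ∀ n : ℕ, Odd n → b (g ^ n) - b g ∈ J' := by
    rintro g hg eg eg' _ ⟨n, rfl⟩
    have h2 : (2 * n : A) * b g ∈ J' :=
      hm (by rw [map_mul, map_ofNat, two, zero_mul]) (hJ g hg)
    have := J'.add_mem (hpow g hg eg eg' (2 * n + 1)) h2
    have e : b (g ^ (2 * n + 1)) - b g =
        b (g ^ (2 * n + 1)) - ((2 * n + 1 : ℕ) : A) * b g + (2 * n : A) * b g := by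
      push_cast; ring
    rwa [e]
  have hI : ∀ s ∈ I, χ s = 1 → ψ s = 1 → b s ∈ J' := by
    intro s hs es es'
    obtain ⟨e, he, p, hp, eq⟩ := hT.conj_odd odd g0D hs
    have hpD := hT.ID (hT.NI hp)
    obtain ⟨q1, q2, q3⟩ := iv _ _ eq
    have ep : ∀ c : G →* F, c s = 1 → c (g0 * s * g0⁻¹) = c (p * s ^ e) → c p = 1 := by
      intro c hc this
      rw [map_mul, map_mul, hc, mul_one, ← map_mul, mul_inv_cancel, map_one, map_mul, map_pow, hc,
        one_pow, mul_one] at this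
      exact this.symm
    obtain ⟨m, hm', em⟩ := hT.odd p hp
    have h1 := hodd p hpD (ep χ es q1) (ep ψ es' q2) m hm'
    rw [(iv (p ^ m) 1 (by rw [map_pow, em, map_one])).2.2, b1, zero_sub, neg_mem_iff] at h1
    have h2 := hadd p hpD (s ^ e) (D.pow_mem (hT.ID hs) e) (ep χ es q1)
      (by rw [map_pow, es', one_pow])
    have h3 := hodd s (hT.ID hs) es es' e he
    have h4 : b (g0 * s * g0⁻¹) - b s ∈ J' := by
      have e : b (p * s ^ e) - b s =
        b (p * s ^ e) - (b p + b (s ^ e)) + (b (s ^ e) - b s) + b p := by ring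
      rw [q3, e]
      exact J'.add_mem (J'.add_mem h2 h3) h1
    have h5 : a g0 * b s = b (g0 * s * g0⁻¹) * δ g0 := by
      have : b (g0 * s) = b (g0 * s * g0⁻¹ * g0) := by rw [inv_mul_cancel_right]
      rw [hb g0 s, hb _ g0, h0] at this
      linear_combination this
    rw [← J'.unit_mul_mem_iff_mem hu]
    have e : (a g0 - δ g0) * b s = (b (g0 * s * g0⁻¹) - b s) * δ g0 := by
      linear_combination h5
    rw [e]
    exact J'.mul_mem_right _ h4
  intro g hg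
  obtain ⟨s, hs, eq⟩ := hT.comm_dec hg g0D
  obtain ⟨q1, q2, q3⟩ := iv _ _ eq
  have es : ∀ c : G →* F, c (g0 * g) = c (s * g * g0) → c s = 1 := fun c h =>
    can c (g := g * g0) (by rw [← mul_assoc, ← h, map_mul, map_mul, mul_comm])
  rw [hb g0 g, hb _ g0, hb s g, h0] at q3
  rw [← J'.unit_mul_mem_iff_mem hu]
  have e : (a g0 - δ g0) * b g = ((a s - 1) * b g) * δ g0 + b s * (δ g * δ g0) := by
    linear_combination q3
  rw [e]
  refine J'.add_mem (J'.mul_mem_right _ (hm ?_ (hJ g hg)))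
    (J'.mul_mem_right _ (hI s hs (es χ q1) (es ψ q2)))
  rw [map_sub, ha, es χ q1, map_one, sub_self]

theorem vanish (hA : LR π) (two : (2 : F) = 0) (odd : Odd ℓ) (hT : TameAt ℓ D I N τ φ f)
    (ha : ∀ g, π (a g) = χ g) (hδ : ∀ g, π (δ g) = ψ g)
    (hb : ∀ g k, b (g * k) = a g * b k + b g * δ k)
    (iv : ∀ g k, f g = f k → χ g = χ k ∧ ψ g = ψ k ∧ b g = b k) (g0D : g0 ∈ D)
    (ne : χ g0 ≠ ψ g0) (h0 : b g0 = 0) (b1 : b 1 = 0) {g : G} (hg : g ∈ D) : b g = 0 := by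
  have key : ∀ k : ℕ, ∀ g ∈ D, b g ∈ RingHom.ker π ^ k := by
    intro k
    induction k with
    | zero => intro g _; simp
    | succ k ih => rw [pow_succ']; exact step hA two odd hT ha hδ hb iv g0D ne h0 b1 _ ih
  obtain ⟨n, hn⟩ := hA.nil
  have := key n g hg
  rwa [hn, Ideal.mem_bot] at this

/-- a character of `D` lifting `χ` and factoring through `f` -/
structure Ch (π : A →+* F) (D : Subgroup G) (f : G →* Γ) (χ : G →* F) (a : G → A) : Prop where
  res : ∀ g, π (a g) = χ g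
  one : ∀ g, f g = 1 → a g = 1
  mul : ∀ g ∈ D, ∀ k ∈ D, a (g * k) = a g * a k

theorem Ch.pow (h : Ch π D f χ a) {g : G} (hg : g ∈ D) (n : ℕ) : a (g ^ n) = a g ^ n := by
  induction n with
  | zero => rw [pow_zero, pow_zero, h.one 1 (map_one f)]
  | succ n ih => rw [pow_succ, h.mul _ (D.pow_mem hg n) _ hg, ih, pow_succ]

theorem ne0 (c : G →* F) (g : G) : c g ≠ 0 := fun h => by
  have : c g * c g⁻¹ = 1 := by rw [← map_mul, mul_inv_cancel, map_one]
  rw [h, zero_mul] at this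
  exact zero_ne_one this

/-- on an element of odd order the value is the Teichmueller lift -/
theorem Ch.eig (hA : LR π) (two : (2 : F) = 0) (h : Ch π D f χ a) {g : G} (hg : g ∈ D)
    (o : ∃ m, Odd m ∧ f g ^ m = 1) {e : A} (he : ∃ m, Odd m ∧ e ^ m = 1) (hr : π e = χ g) :
    a g = e := by
  obtain ⟨m, hm, em⟩ := o
  obtain ⟨n, hn, en⟩ := he
  refine odd_root hA two (hm.mul hn) ?_ (by rw [h.res, hr]) (by rw [hr]; exact ne0 _ _)
  rw [pow_mul, ← h.pow hg, h.one _ (by rw [map_pow, em]), one_pow, mul_comm, pow_mul, en, one_pow]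

/-- the quotient of two characters at `τ` has order dividing the `2`-part of `ℓ - 1` -/
theorem Ch.rel (hA : LR π) (two : (2 : F) = 0) (hT : TameAt ℓ D I N τ φ f) {a' : G → A}
    (h : Ch π D f χ a) (h' : Ch π D f χ a') {v : A} (hv : v * a' τ = 1) :
    π (v * a τ) = 1 ∧ ∀ n m, Odd m → ℓ = 2 ^ n * m + 1 → (v * a τ) ^ 2 ^ n = 1 := by
  have r : π (v * a τ) = 1 := by
    rw [map_mul, h.res, ← h'.res, ← map_mul, hv, map_one]
  refine ⟨r, fun n m hm e => two_pow_of hA two r hm ?_⟩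
  obtain ⟨p, hp, e1⟩ := hT.rel _ hT.tau
  have hpD := hT.ID (hT.NI hp)
  have hτ := hT.ID hT.tau
  have key : ∀ {c : G → A}, Ch π D f χ c → c τ = c p * c τ ^ ℓ := fun {c} hc => by
    have e2 := congrArg c e1
    have e3 : c φ * c φ⁻¹ = 1 := by
      rw [← hc.mul _ hT.phi _ (D.inv_mem hT.phi), mul_inv_cancel, hc.one 1 (map_one f)]
    rw [hc.mul _ (D.mul_mem hT.phi hτ) _ (D.inv_mem hT.phi), hc.mul _ hT.phi _ hτ,
      hc.mul _ hpD _ (D.pow_mem hτ _), hc.pow hτ] at e2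
    linear_combination e2 - c τ * e3
  obtain ⟨k, hk, ek⟩ := hT.odd p hp
  have pp : a p = a' p := h.eig hA two hpD ⟨k, hk, ek⟩
    ⟨k, hk, by rw [← h'.pow hpD, h'.one _ (by rw [map_pow, ek])]⟩ (h'.res p)
  have k1 := key h
  have k2 := key h'
  have k3 : v ^ ℓ * a' τ ^ ℓ = 1 := by rw [← mul_pow, hv, one_pow]
  rw [← e, mul_pow]
  rw [pp] at k1
  linear_combination (-v) * k1 + (v ^ (ℓ + 1) * a τ ^ ℓ) * k2 - (v ^ ℓ * a τ ^ ℓ) * hv +
    (v * a' p * a τ ^ ℓ) * k3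

/-- **splitting**: on `D` the pseudo character is a sum of two characters -/
theorem split (hA : LR π) (two : (2 : F) = 0) (odd : Odd ℓ) (hT : TameAt ℓ D I N τ φ f)
    {t : G → A} {d : G →* Aˣ} (T : TF t d) (iv : ∀ u, f u = 1 → ∀ g, t (g * u) = t g)
    (ht : ∀ g, π (t g) = χ g + ψ g) (hd : π (d g0) = χ g0 * ψ g0) (g0D : g0 ∈ D)
    (ne : χ g0 ≠ ψ g0) (sj : ∃ a0, π a0 = χ g0) :
    ∃ a δ : G → A, Ch π D f χ a ∧ Ch π D f ψ δ ∧ (∀ g, t g = a g + δ g) ∧
      ∀ g ∈ D, (d g : A) = a g * δ g := by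
  have fi : ∀ g k, f g = f k → f (g⁻¹ * k) = 1 := fun g k h => by
    rw [map_mul, ← h, ← map_mul, inv_mul_cancel, map_one]
  obtain ⟨n, hn⟩ := hA.nil
  have := henselian_of_pow hn
  obtain ⟨a0, h0⟩ := sj
  have ne' : χ g0 - ψ g0 ≠ 0 := sub_ne_zero.2 ne
  obtain ⟨α, β, hs, hp, hα⟩ := hensel (RingHom.ker π) (t g0) (d g0) a0
    (by rw [RingHom.mem_ker, map_add, map_sub, map_pow, map_mul, h0, ht, hd]; ring)
    ((hA.loc _ (by
      rw [map_sub, map_mul, map_ofNat, h0, ht]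
      intro h; exact ne' (by linear_combination h))).map _)
  have rα : π α = χ g0 := by
    rw [RingHom.mem_ker, map_sub, sub_eq_zero] at hα
    rw [hα, h0]
  have rβ : π β = ψ g0 := by
    have := congrArg π hs
    rw [map_add, rα, ht] at this
    exact add_left_cancel this
  obtain ⟨u, hu⟩ := (hA.loc (α - β) (by rw [map_sub, rα, rβ]; exact ne')).exists_right_inv
  obtain ⟨M, -, -, x0, x1⟩ := Gm.gm T g0 hs hp hu
  have ru := congrArg π hu
  rw [map_mul, map_sub, rα, rβ, map_one] at ru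
  have ra : ∀ g, π (ent t g0 β u g) = χ g := fun g => by
    rw [ent, map_mul, map_sub, map_mul, ht, ht, rβ, map_mul, map_mul]
    linear_combination (χ g) * ru
  have rδ : ∀ g, π (Gm.en2 t g0 β u g) = ψ g := fun g => by
    rw [Gm.en2, map_sub, ra, ht, add_sub_cancel_left]
  have i2 : ∀ g k, f g = f k → ∀ z y, t (z * g * y) = t (z * k * y) := fun g k h z y => by
    rw [T.comm _ y, T.comm _ y, ← iv _ (fi g k h) (y * (z * g))]
    congr 1; group
  have i1 : ∀ g k, f g = f k → ∀ y, t (g * y) = t (k * y) := fun g k h y => by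
    simpa only [one_mul] using i2 g k h 1 y
  have ic : ∀ g k, f g = f k → χ g = χ k ∧ ψ g = ψ k := fun g k h =>
    ⟨by rw [← ra, ← ra, Gm.ent_congr (i1 g k h)], by rw [← rδ, ← rδ, Gm.en2_congr (i1 g k h)]⟩
  have v1 : ∀ g ∈ D, ∀ k, Gm.xx t g0 β u g k = 0 := fun g hg k =>
    vanish (b := fun g => Gm.xx t g0 β u g k) hA two odd hT ra rδ
      (fun g g' => by rw [M.cl]; ring)
      (fun g g' h => ⟨(ic g g' h).1, (ic g g' h).2, Gm.xx_congr_left (i1 g g' h) k⟩) g0D ne (x0 k)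
      (M.x1 k).1 hg
  refine ⟨_, _, ⟨ra, fun g h => ?_, fun g hg k _ => ?_⟩, ⟨rδ, fun g h => ?_, fun g _ k hk => ?_⟩,
    fun g => (M.sum g).symm, fun g hg => ?_⟩
  · rw [Gm.ent_congr (i1 g 1 (by rw [h, map_one])), M.a1]
  · rw [M.am, v1 g hg, add_zero]
  · rw [Gm.en2_congr (i1 g 1 (by rw [h, map_one])), M.b1]
  · rw [M.bm, v1 k hk, add_zero]
  · rw [← M.det, v1 g hg, sub_zero]

end Vale.Agent.P022F.Wq
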