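import Vale.Agent.P022F.W2.Rel
import Vale.Agent.P022F.OkF

/-!
# P022F, block W: the relations modulo good ideals for residually triangular data
-/

set_option linter.all false

noncomputable section

open NumberField IsLocalRing
open Vale.Agent.P022 Vale.Agent.P022.H443 Vale.Agent.P022D Vale.Agent.P022D.R
open Vale.Agent.P027M.S (mx)
open Vale.Agent.P022D.Sel (M2)
open Vale.Agent.P022E.As (Tg cc tt ev0 Gp0 yT)
open Vale.Agent.P022E.Loc (Pl Wc WRel cW zW rbm)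

namespace Vale.Agent.P022F

variable {O F : Type} [CommRing O] [Field F] [IsLocalRing O] {S : Dat O F} {L : Pl O}

/-- the diagonal characters of the residual representation -/
def OkF.ch (h : OkF L S) (i : Fin 2) : GQ →* Fˣ :=
  MonoidHom.toHomUnits
    { toFun := fun g => mx S.rb g i i
      map_one' := by
        rw [show mx S.rb 1 = 1 from congrArg Units.val (map_one S.rb), Matrix.one_apply_eq]
      map_mul' := fun g k => by
        rw [show mx S.rb (g * k) = mx S.rb g * mx S.rb k from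
          congrArg Units.val (map_mul S.rb g k)]
        fin_cases i <;> simp [Matrix.mul_apply, Fin.sum_univ_two, h.lo] }

theorem OkF.ch_val (h : OkF L S) (i : Fin 2) (g : GQ) : (h.ch i g : F) = mx S.rb g i i := rfl

theorem OkF.pt (h : OkF L S) : Wq.Pt S.red L.r (h.ch 0) (h.ch 1) := by
  refine ⟨h.ker, fun g => ?_, fun g => ?_, h.cont⟩
  · rw [h.ch_val, h.ch_val, ← h.lift, Matrix.trace_fin_two, map_add]; rfl
  · rw [RingHom.map_det, RingHom.mapMatrix_apply, h.lift, Matrix.det_fin_two, h.lo, mul_zero,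
      sub_zero]; rfl

theorem OkF.ne (h : OkF L S) : ∃ g, h.ch 0 g ≠ h.ch 1 g :=
  ⟨S.g0, fun k => S.dne (congrArg Units.val k)⟩

theorem OkF.wf [CharP F 2] (h : OkF L S) {l : ℕ} (hl : l ∈ L.W) {e v : Fin 2 → O} {u : O}
    (hc : Wc S L l e u v) : Wq.Wf S.red L (h.ch 0) (h.ch 1) l e u v := by
  have hl' : l ∈ L.W ∪ L.C := Finset.mem_union_left _ hl
  have hp := h.pr l hl'
  obtain ⟨N, hT⟩ := (h.tm l hl').tame _ S.rb h.dh.opn
  have hτ := h.all l hl _ (hT.ID hT.tau)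
  obtain ⟨m, hm, k⟩ := hc.tm
  exact ⟨hp.1.odd_of_ne_two hp.2, h.tm l hl', (h.reg l hl).1, hτ, h.all l hl _ hT.phi, hc.odd,
    ⟨m, hm, fun i => (k i).1⟩, (k 0).2.trans (h.d0 l _), (k 1).2.trans (h.d1 l _), hc.inv,
    hc.chi hτ⟩

end Vale.Agent.P022F

open Vale.Agent.P022F (OkF)

namespace Vale.Agent.P022E.As

variable {O F : Type} [CommRing O] [Field F] {L : Pl O} {S : Dat O F} {a : Ideal (Tg O)}
  {l : ℕ} {e v : Fin 2 → O} {u : O}

/-- **the relations modulo a good ideal** -/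
theorem Gp0.relF [IsLocalRing O] [CharP F 2] (hc : Wc S L l e u v) (hL : OkF L S) (hl : l ∈ L.W)
    (h : Gp0 L.r a) :
    (tt (L.g0 l) - cc (L.r (L.g0 l)).trace ∈ a ∧ dd (L.g0 l) - cc (L.r (L.g0 l)).det ∈ a) ∧
    (L.τ l ∉ L.Hl l → tt (L.τ l) - cc (L.r (L.τ l)).trace ∈ a ∧
      tt (L.τ l * L.g0 l) - cc (L.r (L.τ l * L.g0 l)).trace ∈ a) ∧
    (L.τ l ∈ L.Hl l → (∀ i, ∃ k : ℕ, (yT L l e u v i - 1) ^ k ∈ a) ∧
      dd (L.τ l) - yT L l e u v 0 * yT L l e u v 1 * cc (L.r (L.τ l)).det ∈ a ∧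
      (L.φ l ∈ L.Hl l → ∀ n m, Odd m → l = 2 ^ n * m + 1 → ∀ i, yT L l e u v i ^ 2 ^ n - 1 ∈ a) ∧
      (L.φ l ∉ L.Hl l → yT L l e u v 1 - yT L l e u v 0 ^ l ∈ a ∧
        ∀ c m, Odd m → l ^ 2 = 2 ^ c * m + 1 → yT L l e u v 0 ^ 2 ^ c - 1 ∈ a)) :=
  (hL.wf hl hc).rel hL.pt h

/-- **after the cut the class conditions hold** -/
theorem Gp0.clsF [IsLocalRing O] [CharP F 2] {e v : ℕ → Fin 2 → O} {u : ℕ → O}
    (hc : ∀ l ∈ L.W, Wc S L l (e l) (u l) (v l)) (hL : OkF L S) (h : Gp0 L.r a)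
    (hy : ∀ l ∈ L.W, L.τ l ∈ L.Hl l → ∀ i, yT L l (e l) (u l) (v l) i - 1 ∈ a)
    (h2 : ∀ g ∈ W.dec (L.P 2), dd g - cc (L.r g).det ∈ a) (h0 : dd L.c + 1 ∈ a)
    (hC : ∀ l ∈ L.C, dd (L.τ l) - cc (L.r (L.τ l)).det ∈ a)
    (hW : ∀ l ∈ L.W, L.τ l ∉ L.Hl l → dd (L.τ l) - cc (L.r (L.τ l)).det ∈ a) :
    (∀ g ∈ L.TT, tt g - cc (L.r g).trace ∈ a) ∧ ∀ g ∈ L.DD, dd g - cc (L.r g).det ∈ a :=
  P022F.Wq.cls (fun l hl => hL.wf hl (hc l hl)) hL.pt hL.odd h hy h2 h0 hC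

end Vale.Agent.P022E.As

namespace Vale.Agent.P022E.Loc

variable {O F : Type} [CommRing O] [Field F] {L : Pl O} {S : Dat O F}
  {l : ℕ} {e v : Fin 2 → O} {u : O}

/-- **WLOC** modulo a good ideal of the ring of symbols -/
theorem Wc.wlocIF [IsLocalRing O] [CharP F 2] (hc : Wc S L l e u v) (hL : OkF L S) (hl : l ∈ L.W)
    {a b m w : ℕ} (hm : Odd m) (hw : Odd w) (ha : l = 2 ^ a * m + 1) (hb : l + 1 = 2 ^ b * w)
    {x : O} (hx : x * (L.r (L.τ l)).det = 1) {I : Ideal (Tg O)} (h : Gp0 L.r I) :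
    WRel L l a b x (cW e u v) (zW L l e u) MvPolynomial.C tt As.dd (fun p q => p - q ∈ I)
      (yT L l e u v 0) (yT L l e u v 1) (As.dd (L.τ l) * cc x) :=
  (hL.wf hl hc).wlocI hL.pt b hm ha hx h

/-- **WLOC** on a vector of a module over the ring of symbols -/
theorem Wc.wlocMF [IsLocalRing O] [CharP F 2] (hc : Wc S L l e u v) (hL : OkF L S) (hl : l ∈ L.W)
    {a b m w : ℕ} (hm : Odd m) (hw : Odd w) (ha : l = 2 ^ a * m + 1) (hb : l + 1 = 2 ^ b * w)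
    {x : O} (hx : x * (L.r (L.τ l)).det = 1) {Y : Type*} [AddCommGroup Y] [Module (Tg O) Y]
    {y : Y} (h : Gp0 L.r (Ideal.torsionOf (Tg O) Y y)) :
    WRel L l a b x (cW e u v) (zW L l e u) MvPolynomial.C tt As.dd (fun p q => p • y = q • y)
      (yT L l e u v 0) (yT L l e u v 1) (As.dd (L.τ l) * cc x) :=
  (hL.wf hl hc).wlocM hL.pt b hm ha hx h

/-- the determinant at any odd prime of the level, on a vector -/
theorem dlMF [IsLocalRing O] [CharP F 2] (hL : OkF L S) (hl : l ∈ L.W ∪ L.C) {a m : ℕ}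
    (hm : Odd m) (ha : l = 2 ^ a * m + 1) {x : O} (hx : x * (L.r (L.τ l)).det = 1) {Y : Type*}
    [AddCommGroup Y] [Module (Tg O) Y] {y : Y} (h : Gp0 L.r (Ideal.torsionOf (Tg O) Y y)) :
    ((As.dd (L.τ l) * cc x) ^ 2 ^ a : Tg O) • y = y :=
  P022F.Wq.dlM hL.pt hL.ne (hL.tm l hl) hm ha hx h

end Vale.Agent.P022E.Loc
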