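import Vale.Agent.P022F.W2.Diag
import Vale.Agent.P022E.W.Loc

/-!
# P022F, block W: the local relations at the odd primes in the residually split case
-/

set_option linter.all false

noncomputable section

namespace Vale.Agent.P022F.Wq

open NumberField IsLocalRing
open Vale.Agent.P022 Vale.Agent.P022.H443 Vale.Agent.P022.H346 Vale.Agent.P022D Vale.Agent.P022D.W
open Vale.Agent.P022D.Sel (M2)
open Vale.Agent.P022E.As (Tg cc tt ev0 Gp0 yT)
open Vale.Agent.P022E.Loc (Pl Tm th yW WRel cW zW yW_c th_sum th_map yW_map)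

variable {O F A : Type} [CommRing O] [Field F] [CommRing A] {π : A →+* F}

/-- a continuous pseudo character lifting `χ + ψ` -/
structure Ps (π : A →+* F) (χ ψ : GQ →* F) (t : GQ → A) (d : GQ →* Aˣ) : Prop where
  tf : TF t d
  tr : ∀ g, π (t g) = χ g + ψ g
  det : ∀ g, π (d g) = χ g * ψ g
  opn : ∃ U : Subgroup GQ, IsOpen (U : Set GQ) ∧ ∀ u ∈ U, ∀ g, t (g * u) = t g

section ring

variable {χ ψ : GQ →* F} {t t' : GQ → A} {d d' : GQ →* Aˣ} {l : ℕ} {P : Ideal (𝓞 Qb)}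
  {τ φ g0 : GQ}

theorem Ps.joint (h : Ps π χ ψ t d) (h' : Ps π χ ψ t' d') :
    ∃ (Γ : Type) (_ : Monoid Γ) (f : GQ →* Γ), IsOpen {g : GQ | f g = 1} ∧
      ∀ u, f u = 1 → (∀ g, t (g * u) = t g) ∧ ∀ g, t' (g * u) = t' g := by
  let K : Subgroup GQ :=
    { carrier := {u | (∀ g, t (g * u) = t g) ∧ ∀ g, t' (g * u) = t' g}
      mul_mem' := fun {a b} ha hb => ⟨fun g => by rw [← mul_assoc, hb.1, ha.1],
        fun g => by rw [← mul_assoc, hb.2, ha.2]⟩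
      one_mem' := ⟨fun g => by rw [mul_one], fun g => by rw [mul_one]⟩
      inv_mem' := fun {a} ha => ⟨fun g => by rw [← ha.1 (g * a⁻¹), inv_mul_cancel_right],
        fun g => by rw [← ha.2 (g * a⁻¹), inv_mul_cancel_right]⟩ }
  have cj : ∀ {s : GQ → A}, (∀ g k, s (g * k) = s (k * g)) → ∀ {n : GQ}, (∀ g, s (g * n) = s g) →
      ∀ x g, s (g * (x * n * x⁻¹)) = s g := fun {s} hs {n} hn x g => by
    rw [← mul_assoc, hs, ← mul_assoc, ← mul_assoc, hn, hs, ← mul_assoc, mul_inv_cancel, one_mul]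
  have hK : K.Normal := ⟨fun n hn x => ⟨cj h.tf.comm hn.1 x, cj h'.tf.comm hn.2 x⟩⟩
  obtain ⟨U, hU, hu⟩ := h.opn
  obtain ⟨V, hV, hv⟩ := h'.opn
  have := galQb
  have ho : IsOpen (K : Set GQ) := Subgroup.isOpen_mono (H₁ := U ⊓ V)
    (fun u k => ⟨hu u k.1, hv u k.2⟩) (hU.inter hV)
  have e : ∀ u, QuotientGroup.mk' K u = 1 ↔ u ∈ K := fun u => QuotientGroup.eq_one_iff u
  refine ⟨GQ ⧸ K, inferInstance, QuotientGroup.mk' K, ?_, fun u k => (e u).1 k⟩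
  rwa [show {g : GQ | QuotientGroup.mk' K g = 1} = (K : Set GQ) from Set.ext e]

/-- the determinant as a character -/
theorem Ps.ch (hA : LR π) (two : (2 : F) = 0) (h : Ps π χ ψ t d) (ne : ∃ g, χ g ≠ ψ g) {Γ : Type}
    [Monoid Γ] {f : GQ →* Γ} (hf : ∀ u, f u = 1 → ∀ g, t (g * u) = t g) (D : Subgroup GQ) :
    Ch π D f (χ * ψ) fun g => (d g : A) := by
  refine ⟨h.det, fun u hu => ?_, fun g _ k _ => by rw [map_mul, Units.val_mul]⟩
  obtain ⟨g, hg⟩ := ne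
  have un : IsUnit (t g) := hA.loc _ (by
    rw [h.tr]; intro e; exact hg (by linear_combination e - ψ g * two))
  have e1 := h.tf.mul g u
  have e2 : t (g * u⁻¹) = t g := by rw [← hf u hu (g * u⁻¹), inv_mul_cancel_right]
  have e3 : t u = 2 := by rw [← h.tf.one, ← hf u hu 1, one_mul]
  rw [hf u hu, e2, e3] at e1
  apply un.mul_right_cancel
  linear_combination -e1

theorem dl0 (hA : LR π) (two : (2 : F) = 0) (tm : Tm l P τ φ) (h : Ps π χ ψ t d)
    (h' : Ps π χ ψ t' d') (ne : ∃ g, χ g ≠ ψ g) {x : A} (hx : x * d' τ = 1) {n m : ℕ} (hm : Odd m)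
    (e : l = 2 ^ n * m + 1) : ((d τ : A) * x) ^ 2 ^ n = 1 := by
  obtain ⟨Γ, _, f, ho, hf⟩ := h.joint h'
  obtain ⟨N, hT⟩ := tm.tame Γ f ho
  rw [mul_comm]
  exact (Ch.rel hA two hT (h.ch hA two ne (fun u k => (hf u k).1) _)
    (h'.ch hA two ne (fun u k => (hf u k).2) _) hx).2 n m hm e

/-- **the relations in every test ring** -/
theorem pair (hA : LR π) (two : (2 : F) = 0) (odd : Odd l) (tm : Tm l P τ φ) (g0D : g0 ∈ dec P)
    (po : ProOdd g0) (h : Ps π χ ψ t d) (h' : Ps π χ ψ t' d') (ι : O →+* A) {e : Fin 2 → O} {u : O}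
    (he : ∃ m, Odd m ∧ ∀ i, e i ^ m = 1) (e0 : π (ι (e 0)) = χ g0) (e1 : π (ι (e 1)) = ψ g0)
    (hu : u * (e 0 - e 1) = 1) :
    (t g0 = t' g0 ∧ (d g0 : A) = d' g0) ∧ ∀ v y : Fin 2 → A,
      (∀ i, v i * th ι t' g0 τ e u i = 1) → (∀ i, y i = v i * th ι t g0 τ e u i) →
      (∀ i, π (y i) = 1) ∧ (d τ : A) = y 0 * y 1 * d' τ ∧
        ∀ n m, Odd m → l = 2 ^ n * m + 1 → ∀ i, y i ^ 2 ^ n = 1 := by
  obtain ⟨Γ, _, f, ho, hf⟩ := h.joint h'
  obtain ⟨N, hT⟩ := tm.tame Γ f ho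
  have hτ := hT.ID hT.tau
  have o := po.pow f ho
  have iu := congrArg ι hu
  rw [map_mul, map_sub, map_one] at iu
  have ne : χ g0 ≠ ψ g0 := fun k => by
    have := congrArg π iu
    rw [map_mul, map_sub, e0, e1, k, sub_self, mul_zero, map_one] at this
    exact zero_ne_one this
  have oe : ∀ i, ∃ m, Odd m ∧ ι (e i) ^ m = 1 := fun i =>
    he.imp fun m hm => ⟨hm.1, by rw [← map_pow, hm.2, map_one]⟩
  have key : ∀ {s : GQ → A} {c : GQ →* Aˣ}, Ps π χ ψ s c → (∀ u, f u = 1 → ∀ g, s (g * u) = s g) →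
      ∃ a δ : GQ → A, Ch π (dec P) f χ a ∧ Ch π (dec P) f ψ δ ∧ s g0 = ι (e 0) + ι (e 1) ∧
        (c g0 : A) = ι (e 0) * ι (e 1) ∧ (c τ : A) = a τ * δ τ ∧ th ι s g0 τ e u 0 = a τ ∧
        th ι s g0 τ e u 1 = δ τ := by
    intro s c hs iv
    obtain ⟨a, δ, ha, hδ, k1, k2⟩ := split hA two odd hT hs.tf iv hs.tr (hs.det g0) g0D ne ⟨_, e0⟩
    have a0 := ha.eig hA two g0D o (oe 0) e0
    have a1 := hδ.eig hA two g0D o (oe 1) e1
    refine ⟨a, δ, ha, hδ, by rw [k1, a0, a1], by rw [k2 _ g0D, a0, a1], k2 _ hτ, ?_, ?_⟩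
    · show ι u * (s (τ * g0) - ι (e 1) * s τ) = _
      rw [k1, k1, ha.mul _ hτ _ g0D, hδ.mul _ hτ _ g0D, a0, a1]
      linear_combination (a τ) * iu
    · show ι u * (ι (e 0) * s τ - s (τ * g0)) = _
      rw [k1, k1, ha.mul _ hτ _ g0D, hδ.mul _ hτ _ g0D, a0, a1]
      linear_combination (δ τ) * iu
  obtain ⟨a, δ, ha, hδ, p1, p2, p3, p4, p5⟩ := key h fun u k => (hf u k).1
  obtain ⟨a', δ', ha', hδ', q1, q2, q3, q4, q5⟩ := key h' fun u k => (hf u k).2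
  refine ⟨⟨p1.trans q1.symm, p2.trans q2.symm⟩, fun v y hv hy => ?_⟩
  have v0 := hv 0
  have v1 := hv 1
  have y0 := hy 0
  have y1 := hy 1
  rw [q4] at v0
  rw [q5] at v1
  rw [p4] at y0
  rw [p5] at y1
  obtain ⟨r1, r2⟩ := Ch.rel hA two hT ha ha' v0
  obtain ⟨s1, s2⟩ := Ch.rel hA two hT hδ hδ' v1
  rw [← y0] at r1 r2
  rw [← y1] at s1 s2
  refine ⟨fun i => ?_, ?_, fun n m hm k i => ?_⟩
  · fin_cases i
    exacts [r1, s1]
  · rw [p3, q3, y0, y1]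
    linear_combination (-(a τ * δ τ)) * v0 - (a τ * δ τ * v 0 * a' τ) * v1
  · fin_cases i
    exacts [r2 n m hm k, s2 n m hm k]

end ring

/-- the point `r` is continuous with residual characters `χ`, `ψ` -/
structure Pt [IsLocalRing O] (red : O →+* F) (r : GQ →* M2 O) (χ ψ : GQ →* Fˣ) : Prop where
  ker : ∀ c, red c = 0 ↔ c ∈ maximalIdeal O
  tr : ∀ g, red (r g).trace = (χ g : F) + ψ g
  det : ∀ g, red (r g).det = (χ g : F) * ψ g
  cont : ∀ k : ℕ, IsOpen {g : GQ | (r g).map (Ideal.Quotient.mk (maximalIdeal O ^ k)) = 1}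

/-- a character with values in the field -/
def cf (χ : GQ →* Fˣ) : GQ →* F := (Units.coeHom F).comp χ

section pt

variable [IsLocalRing O] {red : O →+* F} {r : GQ →* M2 O} {χ ψ : GQ →* Fˣ}

/-- the determinant of the point -/
def dP (r : GQ →* M2 O) (ι : O →+* A) : GQ →* Aˣ :=
  (ι.toMonoidHom.comp (Matrix.detMonoidHom.comp r)).toHomUnits

theorem Pt.ps (h : Pt red r χ ψ) (hA : LR π) {ι : O →+* A} (alg : ∀ c, π (ι c) = red c) :
    Ps π (cf χ) (cf ψ) (fun g => ι (r g).trace) (dP r ι) := by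
  refine ⟨⟨?_, fun g k => ?_, fun g k => ?_⟩, fun g => (alg _).trans (h.tr g),
    fun g => (alg _).trans (h.det g), ?_⟩
  · rw [map_one, Matrix.trace_one, Fintype.card_fin, Nat.cast_ofNat, map_ofNat]
  · rw [map_mul, map_mul, Matrix.trace_mul_comm]
  · show _ = _ + ι (r k).det * _
    rw [← map_mul, ← map_mul, ← map_add]
    congr 1
    have e : (r k).det • r k⁻¹ = (r k).adjugate := by
      have : r k * r k⁻¹ = 1 := by rw [← map_mul, mul_inv_cancel, map_one]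
      calc (r k).det • r k⁻¹ = (r k).adjugate * r k * r k⁻¹ := by
            rw [Matrix.adjugate_mul, smul_mul_assoc, one_mul]
        _ = _ := by rw [mul_assoc, this, mul_one]
    rw [map_mul, map_mul, ← smul_eq_mul (r k).det, ← Matrix.trace_smul, ← mul_smul_comm, e]
    simp [Matrix.trace_fin_two, Matrix.mul_apply, Matrix.adjugate_fin_two]
    ring
  · obtain ⟨n, hn⟩ := hA.nil
    have hk : maximalIdeal O ^ n ≤ RingHom.ker ι := by
      have h1 : (maximalIdeal O).map ι ≤ RingHom.ker π := Ideal.map_le_iff_le_comap.2 fun c hc => by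
        rw [Ideal.mem_comap, RingHom.mem_ker, alg]; exact (h.ker c).2 hc
      have h2 := Ideal.pow_right_mono h1 n
      rw [hn, ← Ideal.map_pow] at h2
      exact Ideal.map_le_iff_le_comap.1 h2
    let q := Ideal.Quotient.mk (maximalIdeal O ^ n)
    refine ⟨kr (q.mapMatrix.toMonoidHom.comp r), kr_open (h.cont n), fun u hu g => ?_⟩
    have e : (r u).map q = 1 := (mem_kr _ _).1 hu
    have e2 : q (r (g * u)).trace = q (r g).trace := by
      rw [AddMonoidHom.map_trace q, AddMonoidHom.map_trace q, map_mul, Matrix.map_mul, e, mul_one]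
    have h2 := hk (Ideal.Quotient.eq.1 e2)
    rwa [RingHom.mem_ker, map_sub, sub_eq_zero] at h2

/-- the test ring of a good ideal -/
theorem Pt.tst (hr : Pt red r χ ψ) {a : Ideal (Tg O)} (h : Gp0 r a) (ha : a ≠ ⊤) :
    ∃ (π : Tg O ⧸ a →+* F) (d : GQ →* (Tg O ⧸ a)ˣ), LR π ∧
      (∀ c, π (((Ideal.Quotient.mk a).comp MvPolynomial.C) c) = red c) ∧
      (∀ b, π (Ideal.Quotient.mk a b) = red (ev0 r b)) ∧
      (∀ g, (d g : Tg O ⧸ a) = Ideal.Quotient.mk a (As.dd g)) ∧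
      Ps π (cf χ) (cf ψ) (fun g => Ideal.Quotient.mk a (tt g)) d := by
  have un : ∀ b, red (ev0 r b) ≠ 0 → IsUnit (Ideal.Quotient.mk a b) := by
    intro b hb
    have h1 : IsUnit (ev0 r b) := by
      by_contra hn
      exact hb ((hr.ker _).2 hn)
    obtain ⟨k, hk⟩ := h.rad b
    have h2 : IsNilpotent (Ideal.Quotient.mk a (b - cc (ev0 r b))) :=
      ⟨k, by rw [← map_pow]; exact Ideal.Quotient.eq_zero_iff_mem.2 hk⟩
    have h3 := h2.isUnit_add_right_of_commute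
      ((h1.map (MvPolynomial.C (σ := GQ ⊕ GQ ⊕ ℕ))).map (Ideal.Quotient.mk a)) (Commute.all _ _)
    rwa [← map_add, cc, sub_add_cancel] at h3
  let π : Tg O ⧸ a →+* F := Ideal.Quotient.lift a (red.comp (ev0 r)) fun b hb => by
    by_contra hn
    have := un b hn
    rw [Ideal.Quotient.eq_zero_iff_mem.2 hb, isUnit_zero_iff, Ideal.Quotient.zero_eq_one_iff] at this
    exact ha this
  have loc : ∀ x, π x ≠ 0 → IsUnit x := fun x => by
    obtain ⟨x, rfl⟩ := Ideal.Quotient.mk_surjective x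
    exact un x
  have alg : ∀ c, π (((Ideal.Quotient.mk a).comp MvPolynomial.C) c) = red c := fun c => by
    show red (ev0 r (MvPolynomial.C c)) = _
    simp [ev0]
  have := h.fin
  let d' : GQ →* Tg O ⧸ a := ⟨⟨fun g => Ideal.Quotient.mk a (As.dd g),
    Ideal.Quotient.eq.2 h.d1⟩, fun g k => Ideal.Quotient.eq.2 (h.dm g k)⟩
  refine ⟨π, d'.toHomUnits, LR.of_finite π loc, alg, fun _ => rfl, fun _ => rfl,
    ⟨(Ideal.Quotient.eq.2 h.t1).trans (map_ofNat _ 2), fun g k => Ideal.Quotient.eq.2 (h.tc g k),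
      fun g k => Ideal.Quotient.eq.2 (h.tm g k)⟩, fun g => ?_, fun g => ?_, ?_⟩
  · show red (ev0 r (tt g)) = _
    rw [show ev0 r (tt g) = (r g).trace by simp [ev0, tt]]
    exact hr.tr g
  · show red (ev0 r (As.dd g)) = _
    rw [show ev0 r (As.dd g) = (r g).det by simp [ev0, As.dd]]
    exact hr.det g
  · obtain ⟨U, hU, hu⟩ := h.opn
    exact ⟨U, hU, fun u k g => Ideal.Quotient.eq.2 (hu u k g)⟩

end pt

/-- the constants at a regular prime -/
structure Wf [IsLocalRing O] (red : O →+* F) (L : Pl O) (χ ψ : GQ →* Fˣ) (l : ℕ) (e : Fin 2 → O)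
    (u : O) (v : Fin 2 → O) : Prop where
  lodd : Odd l
  tm : Tm l (L.P l) (L.τ l) (L.φ l)
  g0D : L.g0 l ∈ dec (L.P l)
  hτ : L.τ l ∈ L.Hl l
  hφ : L.φ l ∈ L.Hl l
  odd : ProOdd (L.g0 l)
  tei : ∃ m, Odd m ∧ ∀ i, e i ^ m = 1
  e0 : red (e 0) = χ (L.g0 l)
  e1 : red (e 1) = ψ (L.g0 l)
  inv : u * (e 0 - e 1) = 1
  chi : ∀ i, v i * th (RingHom.id O) (fun g => (L.r g).trace) (L.g0 l) (L.τ l) e u i = 1

variable [IsLocalRing O] {red : O →+* F} {L : Pl O} {χ ψ : GQ →* Fˣ} {l : ℕ} {e v : Fin 2 → O}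
  {u : O} {a : Ideal (Tg O)}

/-- **the relations modulo a good ideal** -/
theorem Wf.rel0 [CharP F 2] (hc : Wf red L χ ψ l e u v) (hr : Pt red L.r χ ψ) (h : Gp0 L.r a) :
    (tt (L.g0 l) - cc (L.r (L.g0 l)).trace ∈ a ∧ As.dd (L.g0 l) - cc (L.r (L.g0 l)).det ∈ a) ∧
    (∀ i, ∃ k : ℕ, (yT L l e u v i - 1) ^ k ∈ a) ∧
      As.dd (L.τ l) - yT L l e u v 0 * yT L l e u v 1 * cc (L.r (L.τ l)).det ∈ a ∧
      ∀ n m, Odd m → l = 2 ^ n * m + 1 → ∀ i, yT L l e u v i ^ 2 ^ n - 1 ∈ a := by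
  by_cases ha : a = ⊤
  · subst ha
    simp
  obtain ⟨π, d, hA, alg, -, hd, hP⟩ := hr.tst h ha
  obtain ⟨⟨a1, a2⟩, a3⟩ := pair hA CharTwo.two_eq_zero hc.lodd hc.tm hc.g0D hc.odd hP
    (hr.ps hA alg) ((Ideal.Quotient.mk a).comp MvPolynomial.C) hc.tei ((alg _).trans hc.e0)
    ((alg _).trans hc.e1) hc.inv
  obtain ⟨b1, b2, b3⟩ := a3 (fun i => ((Ideal.Quotient.mk a).comp MvPolynomial.C) (v i))
    (fun i => Ideal.Quotient.mk a (yT L l e u v i))
    (fun i => by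
      have c := congrArg ((Ideal.Quotient.mk a).comp MvPolynomial.C) (hc.chi i)
      rwa [map_mul, map_one, th_map _ (ι' := (Ideal.Quotient.mk a).comp MvPolynomial.C)
        (t' := fun g => ((Ideal.Quotient.mk a).comp MvPolynomial.C) (L.r g).trace) (fun _ => rfl)
        (fun g => rfl)] at c)
    (fun i => yW_map (Ideal.Quotient.mk a) (fun _ => rfl) (fun g => rfl) L l e u v i)
  rw [hd] at a2 b2
  refine ⟨⟨Ideal.Quotient.eq.1 a1, Ideal.Quotient.eq.1 a2⟩, fun i => ?_, Ideal.Quotient.eq.1 b2,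
    fun n m hm k i => Ideal.Quotient.eq.1 (b3 n m hm k i)⟩
  obtain ⟨k, hk⟩ := hA.isNilpotent (a := Ideal.Quotient.mk a (yT L l e u v i - 1)) (by
    rw [map_sub, map_sub, b1, map_one, map_one, sub_self])
  exact ⟨k, Ideal.Quotient.eq_zero_iff_mem.1 (by rw [map_pow, hk])⟩

/-- the relations in the shape of P022E -/
theorem Wf.rel [CharP F 2] (hc : Wf red L χ ψ l e u v) (hr : Pt red L.r χ ψ) (h : Gp0 L.r a) :
    (tt (L.g0 l) - cc (L.r (L.g0 l)).trace ∈ a ∧ As.dd (L.g0 l) - cc (L.r (L.g0 l)).det ∈ a) ∧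
    (L.τ l ∉ L.Hl l → tt (L.τ l) - cc (L.r (L.τ l)).trace ∈ a ∧
      tt (L.τ l * L.g0 l) - cc (L.r (L.τ l * L.g0 l)).trace ∈ a) ∧
    (L.τ l ∈ L.Hl l → (∀ i, ∃ k : ℕ, (yT L l e u v i - 1) ^ k ∈ a) ∧
      As.dd (L.τ l) - yT L l e u v 0 * yT L l e u v 1 * cc (L.r (L.τ l)).det ∈ a ∧
      (L.φ l ∈ L.Hl l → ∀ n m, Odd m → l = 2 ^ n * m + 1 → ∀ i, yT L l e u v i ^ 2 ^ n - 1 ∈ a) ∧
      (L.φ l ∉ L.Hl l → yT L l e u v 1 - yT L l e u v 0 ^ l ∈ a ∧
        ∀ c m, Odd m → l ^ 2 = 2 ^ c * m + 1 → yT L l e u v 0 ^ 2 ^ c - 1 ∈ a)) := by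
  obtain ⟨a1, a2, a3, a4⟩ := hc.rel0 hr h
  exact ⟨a1, fun k => absurd hc.hτ k, fun _ => ⟨a2, a3, fun _ => a4, fun k => absurd hc.hφ k⟩⟩

theorem Wf.z_sum (hc : Wf red L χ ψ l e u v) :
    zW L l e u 0 + zW L l e u 1 = (L.r (L.τ l)).trace ∧
      zW L l e u 2 + zW L l e u 3 = (L.r (L.τ l * L.g0 l)).trace := by
  obtain ⟨b1, b2⟩ := th_sum (RingHom.id O) (fun g => (L.r g).trace) (L.g0 l) (L.τ l) hc.inv
  exact ⟨b1.symm, b2.symm⟩

theorem Wf.t_eq (hc : Wf red L χ ψ l e u v) {B : Type*} [CommRing B] (ι : O →+* B) (t : GQ → B) :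
    t (L.τ l) = ι (zW L l e u 0) * yW L l e u v ι t 0 + ι (zW L l e u 1) * yW L l e u v ι t 1 ∧
    t (L.τ l * L.g0 l) =
      ι (zW L l e u 2) * yW L l e u v ι t 0 + ι (zW L l e u 3) * yW L l e u v ι t 1 := by
  obtain ⟨a1, a2⟩ := th_sum ι t (L.g0 l) (L.τ l) hc.inv
  have c0 := congrArg ι (hc.chi 0)
  have c1 := congrArg ι (hc.chi 1)
  rw [map_mul, map_one] at c0 c1
  simp only [zW, yW, Matrix.cons_val_zero, Matrix.cons_val_one, Matrix.cons_val, map_mul]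
  constructor
  · linear_combination (a1 - th ι t (L.g0 l) (L.τ l) e u 0 * c0 -
      th ι t (L.g0 l) (L.τ l) e u 1 * c1)
  · linear_combination (a2 - ι (e 0) * th ι t (L.g0 l) (L.τ l) e u 0 * c0 -
      ι (e 1) * th ι t (L.g0 l) (L.τ l) e u 1 * c1)

/-- **after the cut the traces are those of the point** -/
theorem Wf.cut (h : Wf red L χ ψ l e u v) {B X : Type*} [CommRing B] [AddCommGroup X]
    [Module B X] (ι : O →+* B) (t : GQ → B) {w : X} (hw : ∀ i, yW L l e u v ι t i • w = w) :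
    t (L.τ l) • w = ι (L.r (L.τ l)).trace • w ∧
      t (L.τ l * L.g0 l) • w = ι (L.r (L.τ l * L.g0 l)).trace • w := by
  obtain ⟨a1, a2⟩ := h.t_eq ι t
  obtain ⟨b1, b2⟩ := h.z_sum
  rw [a1, a2, ← b1, ← b2]
  simp only [map_add, add_smul, mul_smul, hw, and_self]

/-- **after the cut the class conditions hold** -/
theorem cls [CharP F 2] {e v : ℕ → Fin 2 → O} {u : ℕ → O}
    (hc : ∀ l ∈ L.W, Wf red L χ ψ l (e l) (u l) (v l)) (hr : Pt red L.r χ ψ)
    (odd : (L.r L.c).det = -1) (h : Gp0 L.r a)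
    (hy : ∀ l ∈ L.W, L.τ l ∈ L.Hl l → ∀ i, yT L l (e l) (u l) (v l) i - 1 ∈ a)
    (h2 : ∀ g ∈ dec (L.P 2), As.dd g - cc (L.r g).det ∈ a) (h0 : As.dd L.c + 1 ∈ a)
    (hC : ∀ l ∈ L.C, As.dd (L.τ l) - cc (L.r (L.τ l)).det ∈ a) :
    (∀ g ∈ L.TT, tt g - cc (L.r g).trace ∈ a) ∧ ∀ g ∈ L.DD, As.dd g - cc (L.r g).det ∈ a := by
  constructor
  · rintro g ⟨l, hl, hg⟩
    obtain ⟨⟨a1, -⟩, -⟩ := (hc l hl).rel0 hr h
    have := (hc l hl).cut (X := Tg O ⧸ a) MvPolynomial.C tt (w := Ideal.Quotient.mk a 1)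
      fun i => Ideal.Quotient.eq.2 (by simpa [yT] using hy l hl (hc l hl).hτ i)
    rcases hg with rfl | rfl | rfl
    exacts [by simpa [cc] using Ideal.Quotient.eq.1 this.1,
      by simpa [cc] using Ideal.Quotient.eq.1 this.2, a1]
  · rintro g (hg | rfl | ⟨l, hl, rfl⟩ | ⟨l, hl, rfl⟩)
    · exact h2 g hg
    · rw [odd]
      simpa [cc] using h0
    · rcases Finset.mem_union.1 hl with hl | hl
      · have hτ := (hc l hl).hτ
        have b := ((hc l hl).rel0 hr h).2.2.1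
        have := a.add_mem b (a.mul_mem_right (cc (L.r (L.τ l)).det) (a.add_mem
          (a.mul_mem_right (yT L l (e l) (u l) (v l) 1) (hy l hl hτ 0)) (hy l hl hτ 1)))
        convert this using 1; ring
      · exact hC l hl
    · exact ((hc l hl).rel0 hr h).1.2

/-- the determinant at an odd prime of the level, modulo a good ideal -/
theorem dlI [CharP F 2] (hr : Pt red L.r χ ψ) (ne : ∃ g, χ g ≠ ψ g)
    (tm : Tm l (L.P l) (L.τ l) (L.φ l)) {n m : ℕ} (hm : Odd m) (hn : l = 2 ^ n * m + 1) {x : O}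
    (hx : x * (L.r (L.τ l)).det = 1) (h : Gp0 L.r a) : (As.dd (L.τ l) * cc x) ^ 2 ^ n - 1 ∈ a := by
  by_cases ha : a = ⊤
  · subst ha
    trivial
  obtain ⟨π, d, hA, alg, -, hd, hP⟩ := hr.tst h ha
  have k := dl0 hA CharTwo.two_eq_zero tm hP (hr.ps hA alg)
    (ne.imp fun g hg k => hg (Units.ext k))
    (x := ((Ideal.Quotient.mk a).comp MvPolynomial.C) x)
    (((map_mul _ x _).symm.trans (congrArg _ hx)).trans (map_one _)) hm hn
  rw [hd] at k
  exact Ideal.Quotient.eq.1 k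

theorem Wf.ne (hc : Wf red L χ ψ l e u v) : χ (L.g0 l) ≠ ψ (L.g0 l) := fun k => by
  have := congrArg red hc.inv
  rw [map_mul, map_sub, hc.e0, hc.e1, k, sub_self, mul_zero, map_one] at this
  exact zero_ne_one this

/-- **WLOC** modulo a good ideal of the ring of symbols -/
theorem Wf.wlocI [CharP F 2] (hc : Wf red L χ ψ l e u v) (hr : Pt red L.r χ ψ) {n m : ℕ} (b : ℕ)
    (hm : Odd m) (hn : l = 2 ^ n * m + 1) {x : O} (hx : x * (L.r (L.τ l)).det = 1)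
    {I : Ideal (Tg O)} (h : Gp0 L.r I) :
    WRel L l n b x (cW e u v) (zW L l e u) MvPolynomial.C tt As.dd (fun p q => p - q ∈ I)
      (yT L l e u v 0) (yT L l e u v 1) (As.dd (L.τ l) * cc x) := by
  obtain ⟨⟨a1, a2⟩, -, a3, a4⟩ := hc.rel0 hr h
  refine ⟨(yW_c _ _).1, (yW_c _ _).2, rfl, a1, a2, dlI hr ⟨_, hc.ne⟩ hc.tm hm hn hx h,
    fun _ => hc.t_eq _ _, fun _ _ => ⟨a4 n m hm hn 0, a4 n m hm hn 1, ?_⟩,
    fun _ k => absurd hc.hφ k, fun k => absurd hc.hτ k⟩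
  have c : (cc x * cc (L.r (L.τ l)).det : Tg O) = 1 := by
    rw [cc, cc, ← map_mul, hx, map_one]
  have e : As.dd (L.τ l) * cc x - yT L l e u v 0 * yT L l e u v 1 =
      (As.dd (L.τ l) - yT L l e u v 0 * yT L l e u v 1 * cc (L.r (L.τ l)).det) * cc x := by
    linear_combination (yT L l e u v 0 * yT L l e u v 1) * c
  rw [e]
  exact I.mul_mem_right _ a3

/-- **WLOC** on a vector of a module over the ring of symbols -/
theorem Wf.wlocM [CharP F 2] (hc : Wf red L χ ψ l e u v) (hr : Pt red L.r χ ψ) {n m : ℕ} (b : ℕ)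
    (hm : Odd m) (hn : l = 2 ^ n * m + 1) {x : O} (hx : x * (L.r (L.τ l)).det = 1) {Y : Type*}
    [AddCommGroup Y] [Module (Tg O) Y] {y : Y} (h : Gp0 L.r (Ideal.torsionOf (Tg O) Y y)) :
    WRel L l n b x (cW e u v) (zW L l e u) MvPolynomial.C tt As.dd (fun p q => p • y = q • y)
      (yT L l e u v 0) (yT L l e u v 1) (As.dd (L.τ l) * cc x) :=
  (hc.wlocI hr b hm hn hx h).imp fun p q k => by
    rwa [Ideal.mem_torsionOf_iff, sub_smul, sub_eq_zero] at k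

/-- the determinant at any odd prime of the level, on a vector -/
theorem dlM [CharP F 2] (hr : Pt red L.r χ ψ) (ne : ∃ g, χ g ≠ ψ g)
    (tm : Tm l (L.P l) (L.τ l) (L.φ l)) {n m : ℕ} (hm : Odd m) (hn : l = 2 ^ n * m + 1) {x : O}
    (hx : x * (L.r (L.τ l)).det = 1) {Y : Type*} [AddCommGroup Y] [Module (Tg O) Y] {y : Y}
    (h : Gp0 L.r (Ideal.torsionOf (Tg O) Y y)) :
    ((As.dd (L.τ l) * cc x) ^ 2 ^ n : Tg O) • y = y := by
  have := dlI hr ne tm hm hn hx h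
  rwa [Ideal.mem_torsionOf_iff, sub_smul, sub_eq_zero, one_smul] at this

end Vale.Agent.P022F.Wq
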